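import Vale.Agent.P092.Defs

namespace Vale.Agent.P092

/-- The root subgroup `{1 + b E_{ij} : b ∈ R}` of `SL₃(R)`. -/
def rootSub (R : Type*) [CommRing R] {i j : Fin 3} (hij : i ≠ j) :
    Subgroup (Matrix.SpecialLinearGroup (Fin 3) R) :=
  Subgroup.closure (Set.range (Matrix.SpecialLinearGroup.transvection (F := R) hij))

/-- `SL₃(R)` is generated by the elementary matrices `1 + b E_{ij}`, `i ≠ j`. -/
def ElemGen (R : Type*) [CommRing R] : Prop :=
  Subgroup.closure {g : Matrix.SpecialLinearGroup (Fin 3) R |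
    ∃ (i j : Fin 3) (hij : i ≠ j) (b : R), g = Matrix.SpecialLinearGroup.transvection hij b} = ⊤

/-- The root condition on an isomorphism `θ : L(SL₃(R)) → L(Λ)`: after conjugating by one unitary
`w` of `L(Λ)`, the images of the algebras `L(X₁₂)` and `L(X₂₃)` of the two simple root subgroups
are of the form `L(Y₁)`, `L(Y₂)` for subgroups `Y₁`, `Y₂` of `Λ`. -/
def RootCondition {R Λ H K : Type*} [CommRing R] [Group Λ]
    [NormedAddCommGroup H] [InnerProductSpace ℂ H] [CompleteSpace H]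
    [NormedAddCommGroup K] [InnerProductSpace ℂ K] [CompleteSpace K]
    (b : HilbertBasis (Matrix.SpecialLinearGroup (Fin 3) R) ℂ H) (b' : HilbertBasis Λ ℂ K)
    (θ : (H →L[ℂ] H) → (K →L[ℂ] K)) : Prop :=
  ∃ w ∈ LGrp b', star w * w = 1 ∧ w * star w = 1 ∧ ∃ Y₁ Y₂ : Subgroup Λ,
    (fun x => w * θ x * star w) '' LSub b (rootSub R (show (0 : Fin 3) ≠ 1 by decide)) =
      LSub b' Y₁ ∧
    (fun x => w * θ x * star w) '' LSub b (rootSub R (show (1 : Fin 3) ≠ 2 by decide)) =
      LSub b' Y₂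

end Vale.Agent.P092
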