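import Vale.Agent.P092.MathlibUsed

namespace Vale.Agent.P092

open scoped InnerProductSpace

section exist

variable {G H : Type*} [NormedAddCommGroup H] [InnerProductSpace ℂ H] [CompleteSpace H]

/-- The isometry sending the orthonormal basis `b` to an orthonormal family `v`. -/
lemma exists_isom (b : HilbertBasis G ℂ H) (v : G → H) (hv : Orthonormal ℂ v) :
    ∃ T : H →L[ℂ] H, (∀ s, T (b s) = v s) ∧ ∀ ξ, ‖T ξ‖ = ‖ξ‖ := by
  classical
  refine ⟨(hv.orthogonalFamily.linearIsometry.comp
    b.repr.toLinearIsometry).toContinuousLinearMap, ?_, ?_⟩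
  · intro s
    change hv.orthogonalFamily.linearIsometry (b.repr (b s)) = v s
    rw [HilbertBasis.repr_self, hv.orthogonalFamily.linearIsometry_apply_single,
      LinearIsometry.toSpanSingleton_apply, one_smul]
  · intro ξ
    exact (hv.orthogonalFamily.linearIsometry.comp b.repr.toLinearIsometry).norm_map ξ

variable [Group G]

theorem exists_left (b : HilbertBasis G ℂ H) (g : G) :
    ∃ T : H →L[ℂ] H, ∀ h, T (b h) = b (g * h) := by
  obtain ⟨T, hT, -⟩ := exists_isom b (fun h => b (g * h))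
    (b.orthonormal.comp _ (mul_right_injective g))
  exact ⟨T, hT⟩

end exist

section defs

variable {G H : Type*} [Group G] [NormedAddCommGroup H] [InnerProductSpace ℂ H] [CompleteSpace H]

/-- The left regular unitary `u_g` of `ℓ²(G)`, realized on a Hilbert space `H` with an orthonormal
basis `b` indexed by `G`: the bounded operator with `u_g b_h = b_{gh}`. -/
noncomputable def uu (b : HilbertBasis G ℂ H) (g : G) : H →L[ℂ] H :=
  Classical.choose (exists_left b g)

/-- The group von Neumann algebra `L(G)`: the double commutant of the `u_g`. -/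
def LGrp (b : HilbertBasis G ℂ H) : Set (H →L[ℂ] H) :=
  Set.centralizer (Set.centralizer (Set.range (uu b)))

/-- The subalgebra `L(Y)` of `L(G)`: the double commutant of the `u_y`, `y ∈ Y`. -/
def LSub (b : HilbertBasis G ℂ H) (Y : Subgroup G) : Set (H →L[ℂ] H) :=
  Set.centralizer (Set.centralizer (uu b '' Y))

end defs

section iso

variable {H K : Type*} [NormedAddCommGroup H] [InnerProductSpace ℂ H] [CompleteSpace H]
  [NormedAddCommGroup K] [InnerProductSpace ℂ K] [CompleteSpace K]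

/-- `θ` restricts to a `*`-isomorphism of the operator algebra `M` onto `N`. -/
structure IsStarIso (M : Set (H →L[ℂ] H)) (N : Set (K →L[ℂ] K))
    (θ : (H →L[ℂ] H) → (K →L[ℂ] K)) : Prop where
  bij : Set.BijOn θ M N
  add : ∀ x ∈ M, ∀ y ∈ M, θ (x + y) = θ x + θ y
  mul : ∀ x ∈ M, ∀ y ∈ M, θ (x * y) = θ x * θ y
  smul : ∀ c : ℂ, ∀ x ∈ M, θ (c • x) = c • θ x
  star : ∀ x ∈ M, θ (star x) = star (θ x)

/-- `θ : L(Γ) → L(Λ)` is canonical: `θ(u_g) = χ(g) w v_{δ(g)} w*` for all `g`,
with `δ : Γ ≃ Λ` a group isomorphism, `χ` a character and `w` a unitary of `L(Λ)`. -/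
def IsCanonical {Γ Λ : Type*} [Group Γ] [Group Λ] (b : HilbertBasis Γ ℂ H)
    (b' : HilbertBasis Λ ℂ K) (θ : (H →L[ℂ] H) → (K →L[ℂ] K)) : Prop :=
  ∃ (δ : Γ ≃* Λ) (χ : Γ →* Circle), ∃ w ∈ LGrp b', star w * w = 1 ∧ w * star w = 1 ∧
    ∀ g : Γ, θ (uu b g) = (χ g : ℂ) • (w * uu b' (δ g) * star w)

end iso

/-- `G` is ICC: every nontrivial conjugacy class is infinite. -/
def IsICC (G : Type*) [Group G] : Prop :=
  ∀ g : G, g ≠ 1 → (Set.range fun h : G => h * g * h⁻¹).Infinite

end Vale.Agent.P092
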