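import Mathlib.Algebra.Order.Field.GeomSum
import Mathlib.Algebra.Ring.IsFormallyReal
import Mathlib.Analysis.CStarAlgebra.ApproximateUnit
import Mathlib.Analysis.CStarAlgebra.Module.Constructions
import Mathlib.Analysis.Complex.Circle
import Mathlib.Analysis.InnerProductSpace.StarOrder
import Mathlib.Analysis.InnerProductSpace.l2Space
import Mathlib.Analysis.VonNeumannAlgebra.Basic
import Mathlib.Data.Int.Star
import Mathlib.LinearAlgebra.Matrix.Swap
import Mathlib.Tactic
import Mathlib.Topology.Separation.CompletelyRegular

/-! The part of Mathlib that the development of this folder uses. -/
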